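import Mathlib
import Vale.Agent.P227.Arith

/-! P227: self-improvement of the logarithmic Brunn-Minkowski inequality. -/

namespace Vale.Agent.Results.P227.TensorPower

open _root_.P227
open MeasureTheory

/-- (A) the inequality (with the `p`-combination; `p = 0` is the logarithmic one) in dimension
`n + 1` implies it in dimension `n`. (B) The logarithmic Brunn-Minkowski conjecture holds in all
dimensions if and only if for every `ε > 0` there are arbitrarily large dimensions `N` and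
`0 ≤ p ≤ ε` for which the `L_p` inequality holds in dimension `N` up to the factor `(1 - ε) ^ N`.
(C) The same for a fixed `p`. (D) A pair violating the logarithmic inequality by a factor `ρ` in
dimension `n` gives pairs violating it by the factor `ρ ^ (N / n)` in every dimension `N ≥ n`. -/
theorem result :
    (∀ n : ℕ, 1 ≤ n → ∀ p : ℝ, Ineq (n + 1) p 1 → Ineq n p 1) ∧
    ((∀ n : ℕ, 1 ≤ n → Ineq n 0 1) ↔
      (∀ ε : ℝ, 0 < ε → ∀ N₀ : ℕ, ∃ N ≥ N₀, ∃ p : ℝ, 0 ≤ p ∧ p ≤ ε ∧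
        Ineq N p (ENNReal.ofReal (1 - ε) ^ N))) ∧
    (∀ p : ℝ, (∀ ε : ℝ, 0 < ε → ∀ N₀ : ℕ, ∃ N ≥ N₀, Ineq N p (ENNReal.ofReal (1 - ε) ^ N)) →
      ∀ n : ℕ, 1 ≤ n → Ineq n p 1) ∧
    (∀ n N : ℕ, 1 ≤ n → n ≤ N → ∀ K L : Set (Fin n → ℝ), SymBody K → SymBody L →
      ∀ l : ℝ, 0 ≤ l → l ≤ 1 → ∀ ρ : ENNReal,
      volume (comb (mean 0 l) K L) ≤ ρ * (volume K ^ (1 - l) * volume L ^ l) →
      ∃ A B : Set (Fin N → ℝ), SymBody A ∧ SymBody B ∧
        volume (comb (mean 0 l) A B) ≤ ρ ^ (N / n) * (volume A ^ (1 - l) * volume B ^ l)) := by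
  refine ⟨fun n hn p h => step_down h hn, ⟨fun h => ?_, fun h => self_improve h⟩,
    fun p h => self_improve_p h,
    fun n N hn hN K L hK hL l hl hl1 ρ h => amplify hn hN hK hL hl hl1 h⟩
  intro ε hε N₀
  refine ⟨N₀ + 1, Nat.le_succ _, 0, le_rfl, hε.le, ?_⟩
  intro K L hK hL l hl hl1
  have h1 := h (N₀ + 1) (by omega) K L hK hL l hl hl1
  refine le_trans (mul_le_mul_left ?_ _) h1
  apply pow_le_one'
  rw [← ENNReal.ofReal_one]
  exact ENNReal.ofReal_le_ofReal (by linarith)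

end Vale.Agent.Results.P227.TensorPower
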